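import Vale.Agent.P248.HalfUnconditional

/-!
# The symmetric Mahler inequality for balanced bodies
-/

namespace Vale.Agent.Results.P248.BalancedMahler

open MeasureTheory Set Vale.Agent.P248

/-- In every dimension the symmetric Mahler inequality holds for bodies with a balanced linear
image, in particular for bodies with a linear image invariant under even sign changes and one
signed permutation with an odd number of sign changes. -/
theorem result (n : ℕ) (K : Set (Fin n → ℝ)) (hK : IsCompact K) (hc : Convex ℝ K)
    (hs : ∀ x ∈ K, -x ∈ K) (hi : (interior K).Nonempty) (T : (Fin n → ℝ) ≃ₗ[ℝ] (Fin n → ℝ))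
    (h : Balanced n (T '' K) ∨ (EvenSignInvariant (T '' K) ∧
      ∃ (σ : Equiv.Perm (Fin n)) (s : Fin n → Bool), (∏ k, sgnB (s k)) = -1 ∧
        ∀ x ∈ T '' K, (fun k => sgnB (s k) * x (σ k)) ∈ T '' K)) :
    ENNReal.ofReal (4 ^ n / (n.factorial : ℝ)) ≤ volume K * volume (polarBody K) := by
  have hsb : SymBody n K := ⟨hK, hc, hs, hi⟩
  have hb : Balanced n (T '' K) := by
    rcases h with h | ⟨he, σ, s, hodd, hinv⟩
    · exact h
    · exact balanced_of_evenSignInvariant
        (hK.image (LinearMap.continuous_of_finiteDimensional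
          (T : (Fin n → ℝ) →ₗ[ℝ] (Fin n → ℝ)))) he σ s hodd hinv
  have := mahler_linear_balanced n K hsb T hb
  refine (ENNReal.ofReal_le_ofReal this).trans ?_
  rw [ENNReal.ofReal_mul ENNReal.toReal_nonneg, ENNReal.ofReal_toReal hK.measure_lt_top.ne,
    ENNReal.ofReal_toReal hsb.isCompact_polar.measure_lt_top.ne]

end Vale.Agent.Results.P248.BalancedMahler
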