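import Vale.Agent.P254.Mahler.Gap
import Vale.Agent.P254M.Gap.Max
import Vale.Agent.P254M.Pointwise
import Vale.Agent.P254M.Limit
import Vale.Agent.P254M.Exist

/-!
An explicit lower bound for the volume product of an arbitrary convex body, a fixed exponential
factor away from the conjectured minimum.
-/

open MeasureTheory Set
open Vale.Agent.P248 (polarBody)
open Vale.Agent.P254M

namespace Vale.Agent.Results.P248.GeneralLowerBound

/-- The base of the exponential factor. -/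
lemma base_eq :
    2 * Real.pi * Real.exp (-(2 * (1 / 5 + 2 / 5 * Real.log 3) + 1)) =
      2 * Real.pi / (Real.exp (7 / 5) * (3 : ℝ) ^ (4 / 5 : ℝ)) := by
  rw [Real.exp_neg, ← div_eq_mul_inv, Real.rpow_def_of_pos (by norm_num : (0 : ℝ) < 3),
    ← Real.exp_add]
  ring_nf

/-- The base exceeds `π / (2e)`. -/
lemma base_gt : Real.pi / (2 * Real.exp 1) <
    2 * Real.pi / (Real.exp (7 / 5) * (3 : ℝ) ^ (4 / 5 : ℝ)) := by
  have h : Real.exp (7 / 5) * (3 : ℝ) ^ (4 / 5 : ℝ) < 4 * Real.exp 1 := by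
    rw [show (7 : ℝ) / 5 = 1 + 2 / 5 by norm_num, Real.exp_add, mul_assoc, mul_comm (4 : ℝ)]
    refine mul_lt_mul_of_pos_left ?_ (Real.exp_pos 1)
    refine lt_of_pow_lt_pow_left₀ 5 (by norm_num) ?_
    rw [mul_pow, ← Real.exp_nat_mul, ← Real.rpow_natCast ((3 : ℝ) ^ (4 / 5 : ℝ)),
      ← Real.rpow_mul (by norm_num)]
    have e2 : Real.exp (((5 : ℕ) : ℝ) * (2 / 5)) = Real.exp 1 * Real.exp 1 := by
      rw [← Real.exp_add]; norm_num
    rw [e2]
    norm_num
    nlinarith [Real.exp_one_lt_d9, Real.exp_pos 1]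
  rw [div_lt_div_iff₀ (by positivity) (by positivity)]
  nlinarith [Real.pi_pos]

theorem result :
    Real.pi / (2 * Real.exp 1) < 2 * Real.pi / (Real.exp (7 / 5) * (3 : ℝ) ^ (4 / 5 : ℝ)) ∧
    ∀ (n : ℕ) (K : Set (Fin n → ℝ)), Convex ℝ K → IsCompact K → ∀ z ∈ interior K,
      (2 * Real.pi / (Real.exp (7 / 5) * (3 : ℝ) ^ (4 / 5 : ℝ))) ^ (n + 1) *
          (((n : ℝ) + 1) ^ (n + 1) / (n.factorial : ℝ) ^ 2) ≤
        volume.real K * volume.real (polarBody ((fun x => x - z) '' K)) := by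
  refine ⟨base_gt, fun n K hc hk z hz => ?_⟩
  rw [← base_eq]
  exact Vale.Agent.P254.Mahler.mahler_of_gap
    (fun m U a b hb => Gap.gdef_le_of_skew (skewMoment_of existence pointwise) U hb) hc hk hz

end Vale.Agent.Results.P248.GeneralLowerBound
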